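import Vale.Agent.P181.FL2.Defs

set_option autoImplicit false

/-!
# P181, FL2, row (TR): from words in even letters to words in odd letters
-/

open scoped BigOperators

namespace Vale.Agent.P181.FL2.H648

open Finset
open Vale.Agent.P181.FL (Pos Cell HWW ColZ CapStmt)

section

variable {P : Type} [Fintype P] [DecidableEq P] {n M : ℕ} {lam : Fin n → ℕ}

/-- The transfer: the signed sum over all fillings with the given columns. -/
noncomputable def kap (l0 : P ≃ Cell lam) (f : (P → Fin n) → ℂ) (c : P → Fin M) : ℂ :=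
  ∑ l : P ≃ Cell lam, (if ∀ p, ((l p).2 : ℕ) = (c p : ℕ) then
    ((Equiv.Perm.sign (l0.symm.trans l) : ℤ) : ℂ) * f (fun p => (l p).1) else 0)

theorem sign_aux (l0 l : P ≃ Cell lam) (e : Equiv.Perm P) :
    Equiv.Perm.sign (l0.symm.trans (e.symm.trans l)) =
      Equiv.Perm.sign e * Equiv.Perm.sign (l0.symm.trans l) := by
  have h : l0.symm.trans (e.symm.trans l) =
      (l0.symm.trans l) * ((l0.symm.trans e.symm).trans l0) := by
    apply Equiv.ext
    intro x
    rw [Equiv.Perm.mul_apply]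
    simp only [Equiv.trans_apply, Equiv.symm_apply_apply]
  rw [h, Equiv.Perm.sign_mul, Equiv.Perm.sign_symm_trans_trans, mul_comm]
  congr 1
  exact Equiv.Perm.sign_symm e

theorem kap_comp (l0 : P ≃ Cell lam) (f : (P → Fin n) → ℂ) (c : P → Fin M)
    (e : Equiv.Perm P) :
    kap l0 f (fun p => c (e p)) =
      ((Equiv.Perm.sign e : ℤ) : ℂ) * kap l0 (fun w => f (fun p => w (e p))) c := by
  unfold kap
  rw [Finset.mul_sum]
  refine Fintype.sum_equiv (Equiv.equivCongr e (Equiv.refl _)) _ _ ?_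
  intro l
  have hl : ∀ p, (Equiv.equivCongr e (Equiv.refl _) l) p = l (e.symm p) := fun p => rfl
  have hc : (∀ p, ((l p).2 : ℕ) = (c (e p) : ℕ)) ↔
      ∀ p, (((Equiv.equivCongr e (Equiv.refl _) l) p).2 : ℕ) = (c p : ℕ) := by
    constructor
    · intro h p
      have := h (e.symm p)
      rw [Equiv.apply_symm_apply] at this
      exact this
    · intro h p
      have := h (e p)
      rw [hl, Equiv.symm_apply_apply] at this
      exact this
  by_cases h : ∀ p, ((l p).2 : ℕ) = (c (e p) : ℕ)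
  · rw [if_pos h, if_pos (hc.1 h)]
    have hs : Equiv.Perm.sign (l0.symm.trans (Equiv.equivCongr e (Equiv.refl _) l)) =
        Equiv.Perm.sign e * Equiv.Perm.sign (l0.symm.trans l) := sign_aux l0 l e
    rw [hs]
    have hf : (fun p => ((Equiv.equivCongr e (Equiv.refl _) l) (e p)).1) = fun p => (l p).1 := by
      funext p
      rw [hl, Equiv.symm_apply_apply]
    have hf' : (fun w : P → Fin n => f (fun p => w (e p)))
        (fun p => ((Equiv.equivCongr e (Equiv.refl _) l) p).1) = f (fun p => (l p).1) :=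
      congrArg f hf
    rw [hf']
    have h1 : ((Equiv.Perm.sign e : ℤ) : ℂ) * ((Equiv.Perm.sign e : ℤ) : ℂ) = 1 := by
      rw [← Int.cast_mul, ← Units.val_mul, Int.units_mul_self]
      simp
    push_cast
    linear_combination (-((Equiv.Perm.sign (l0.symm.trans l) : ℤ) : ℂ) *
      f (fun p => (l p).1)) * h1
  · rw [if_neg h, if_neg (fun h' => h (hc.2 h')), mul_zero]

/-- The value at the columns of `l0` is the column antisymmetrisation. -/
theorem kap_self (l0 : P ≃ Cell lam) (f : (P → Fin n) → ℂ) (c : P → Fin M)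
    (hc : ∀ p, (c p : ℕ) = ((l0 p).2 : ℕ)) :
    ∑ g : Equiv.Perm (Cell lam), (if ∀ c, ((g c).2 : ℕ) = (c.2 : ℕ) then
      ((Equiv.Perm.sign g : ℤ) : ℂ) * f (fun p => (g (l0 p)).1) else 0) = kap l0 f c := by
  unfold kap
  refine Fintype.sum_equiv (Equiv.equivCongr l0.symm (Equiv.refl _)) _ _ ?_
  intro g
  have hl : ∀ p, (Equiv.equivCongr l0.symm (Equiv.refl _) g) p = g (l0 p) := fun p => rfl
  have hs : l0.symm.trans (Equiv.equivCongr l0.symm (Equiv.refl _) g) = g := by
    apply Equiv.ext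
    intro x
    rw [Equiv.trans_apply, hl, Equiv.apply_symm_apply]
  rw [hs]
  have hcc : (∀ x, ((g x).2 : ℕ) = (x.2 : ℕ)) ↔
      ∀ p, (((Equiv.equivCongr l0.symm (Equiv.refl _) g) p).2 : ℕ) = (c p : ℕ) := by
    constructor
    · intro h p
      rw [hc p]
      exact h (l0 p)
    · intro h x
      have := h (l0.symm x)
      rw [hl, hc, Equiv.apply_symm_apply] at this
      exact this
  by_cases h : ∀ x, ((g x).2 : ℕ) = (x.2 : ℕ)
  · rw [if_pos h, if_pos (hcc.1 h)]
    rfl
  · rw [if_neg h, if_neg (fun h' => h (hcc.2 h'))]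

theorem kap_sum (l0 : P ≃ Cell lam) (f : (P → Fin n) → ℂ) (c : P → Fin M) {ι : Type}
    [Fintype ι] (e : ι → Equiv.Perm P) (h : ∀ w : P → Fin n, ∑ i, f (fun p => w (e i p)) = 0) :
    ∑ i, ((Equiv.Perm.sign (e i) : ℤ) : ℂ) * kap l0 f (fun p => c (e i p)) = 0 := by
  have h1 : ∀ i, ((Equiv.Perm.sign (e i) : ℤ) : ℂ) * kap l0 f (fun p => c (e i p)) =
      kap l0 (fun w => f (fun p => w (e i p))) c := by
    intro i
    rw [kap_comp, ← mul_assoc]
    have h1 : ((Equiv.Perm.sign (e i) : ℤ) : ℂ) * ((Equiv.Perm.sign (e i) : ℤ) : ℂ) = 1 := by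
      rw [← Int.cast_mul, ← Units.val_mul, Int.units_mul_self]
      simp
    rw [h1, one_mul]
  rw [Finset.sum_congr rfl (fun i _ => h1 i)]
  unfold kap
  rw [Finset.sum_comm]
  apply Finset.sum_eq_zero
  intro l _
  by_cases hl : ∀ p, ((l p).2 : ℕ) = (c p : ℕ)
  · simp only [if_pos hl]
    rw [← Finset.mul_sum, h (fun p => (l p).1), mul_zero]
  · simp only [if_neg hl]
    exact Finset.sum_const_zero

end

/-- **(TR)** -/
theorem trG : TrG := by
  intro hcap N q m n M hdom lam f hanti hM hww hslot hsum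
  apply hcap n lam (Pos N q m) f hanti hww
  intro l0
  have hc : ∀ p, ((l0 p).2 : ℕ) < M := fun p => (l0 p).2.2.trans_le (hM _)
  rw [kap_self l0 f (fun p => (⟨((l0 p).2 : ℕ), hc p⟩ : Fin M)) (fun p => rfl)]
  apply hdom (kap l0 f)
  · intro e he c
    rw [kap_comp]
    congr 2
    funext w
    exact hslot e he w
  · intro c
    exact kap_sum l0 f c (fun g : Equiv.Perm (Fin N × Fin q) => blk m g) hsum

end Vale.Agent.P181.FL2.H648
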